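import Vale.Agent.P050.H687.Spec

/-!
# P050 [CLO]: the density of a substitution (FACT2)
-/

set_option linter.unusedSectionVars false

namespace Vale.Agent.P050.H590

open Finset Vale.Agent.P050.Lev Vale.Agent.P050.Tmpl Vale.Agent.P050.H177 Vale.Agent.P050.H687

lemma prod_sub {α : Type} [Fintype α] (p : α → Prop) [DecidablePred p] [Fintype {x // p x}]
    (f : α → ℝ) : ∏ x : {x // p x}, f x.1 = ∏ x, if p x then f x else 1 := by
  rw [← Finset.prod_filter]
  symm
  exact Finset.prod_subtype _ (by simp) f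

open Classical in
lemma prod_edges {A : Type} [Fintype A] (F : SimpleGraph A) (σ : A → Bool) (g : A → A → ℝ) :
    ∏ e ∈ sideEdges F σ, g e.1 e.2 =
      ∏ a, ∏ b, if F.Adj a b ∧ σ a = false ∧ σ b = true then g a b else 1 := by
  unfold sideEdges
  rw [prod_filter, Fintype.prod_prod_type]

open Classical in
lemma prod_side {VG : Type} [Fintype VG] (G : SimpleGraph VG) (t : VG → Bool)
    (hG : ∀ p q, G.Adj p q → t p ≠ t q) (f : VG → VG → ℝ) :
    (∏ p, ∏ q, if G.Adj p q then f p q else 1) = ∏ e ∈ sideEdges G t, f e.1 e.2 * f e.2 e.1 := by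
  rw [prod_edges G t (fun p q => f p q * f q p)]
  have h1 : ∀ p q, (if G.Adj p q ∧ t p = false ∧ t q = true then f p q * f q p else 1) =
      (if G.Adj p q ∧ t p = false ∧ t q = true then f p q else 1) *
        (if G.Adj p q ∧ t p = false ∧ t q = true then f q p else 1) := by
    intro p q
    split_ifs <;> simp
  simp only [h1, prod_mul_distrib]
  rw [prod_comm (f := fun p q => if G.Adj p q ∧ t p = false ∧ t q = true then f q p else 1)]
  rw [← prod_mul_distrib]
  refine prod_congr rfl fun p _ => ?_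
  rw [← prod_mul_distrib]
  refine prod_congr rfl fun q _ => ?_
  by_cases h : G.Adj p q
  · have h' := hG p q h
    cases hp : t p <;> cases hq : t q <;> simp_all [G.adj_comm q p]
  · simp [h, G.adj_comm q p]

section

variable {VG V U : Type} [Fintype VG] [DecidableEq VG] [Fintype V] [DecidableEq V] [Fintype U]

lemma t1 (W : U → U → ℝ) (H : SimpleGraph V) (s : V → Bool) (K : Finset V)
    [Fintype {v // v ∈ K}] (r : V → U) :
    ∏ u : {v // v ∈ K}, ∏ v : {v // v ∈ K}, ed H s W u.1 v.1 (r u.1) (r v.1) =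
      aw H s W K r := by
  rw [prod_sub (fun u => u ∈ K)
    (fun u => ∏ v : {v // v ∈ K}, ed H s W u v.1 (r u) (r v.1))]
  unfold aw
  refine prod_congr rfl fun u _ => ?_
  by_cases hu : u ∈ K
  · simp only [hu, if_true, true_and]
    exact prod_sub (fun v => v ∈ K) (fun v => ed H s W u v (r u) (r v))
  · simp [hu]

lemma t2 (W : U → U → ℝ) (t : VG → Bool) (H : SimpleGraph V) (s τ : V → Bool) (K : Finset V)
    [Fintype {v // v ∈ K}] [Fintype {p : VG × V // p.2 ∉ K ∧ t p.1 = τ p.2}]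
    (r : V → U) (Z : VG → V → U) :
    ∏ u : {v // v ∈ K}, ∏ y : {p : VG × V // p.2 ∉ K ∧ t p.1 = τ p.2},
        ed H s W u.1 y.1.2 (r u.1) (Z y.1.1 y.1.2) =
      ∏ p, ∏ u, ∏ v, if u ∈ K ∧ v ∈ pt τ K (t p) then ed H s W u v (r u) (Z p v) else 1 := by
  rw [prod_sub (fun u => u ∈ K) (fun u => ∏ y : {p : VG × V // p.2 ∉ K ∧ t p.1 = τ p.2},
    ed H s W u y.1.2 (r u) (Z y.1.1 y.1.2))]
  rw [prod_comm]
  refine prod_congr rfl fun u _ => ?_
  by_cases hu : u ∈ K
  · simp only [hu, if_true, true_and]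
    rw [prod_sub (fun y : VG × V => y.2 ∉ K ∧ t y.1 = τ y.2)
      (fun y => ed H s W u y.2 (r u) (Z y.1 y.2)), Fintype.prod_prod_type]
    refine prod_congr rfl fun p _ => prod_congr rfl fun v _ => ?_
    simp only [pt, mem_filter, mem_univ, true_and]
    refine if_congr ?_ rfl rfl
    rw [eq_comm (a := t p)]
  · simp [hu]

lemma t3 (W : U → U → ℝ) (t : VG → Bool) (H : SimpleGraph V) (s τ : V → Bool) (K : Finset V)
    [Fintype {v // v ∈ K}] [Fintype {p : VG × V // p.2 ∉ K ∧ t p.1 = τ p.2}]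
    (r : V → U) (Z : VG → V → U) :
    ∏ x : {p : VG × V // p.2 ∉ K ∧ t p.1 = τ p.2}, ∏ v : {v // v ∈ K},
        ed H s W x.1.2 v.1 (Z x.1.1 x.1.2) (r v.1) =
      ∏ p, ∏ u, ∏ v, if u ∈ pt τ K (t p) ∧ v ∈ K then ed H s W u v (Z p u) (r v) else 1 := by
  rw [prod_sub (fun y : VG × V => y.2 ∉ K ∧ t y.1 = τ y.2)
      (fun x => ∏ v : {v // v ∈ K}, ed H s W x.2 v.1 (Z x.1 x.2) (r v.1)),
    Fintype.prod_prod_type]
  refine prod_congr rfl fun p _ => prod_congr rfl fun u _ => ?_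
  by_cases hu : u ∈ pt τ K (t p)
  · have hu' : u ∉ K ∧ t p = τ u := by
      simp only [pt, mem_filter, mem_univ, true_and] at hu
      exact ⟨hu.1, hu.2.symm⟩
    simp only [hu, true_and]
    rw [if_pos hu']
    exact prod_sub (fun v => v ∈ K) (fun v => ed H s W u v (Z p u) (r v))
  · have hu' : ¬ (u ∉ K ∧ t p = τ u) := by
      simp only [pt, mem_filter, mem_univ, true_and] at hu
      exact fun h => hu ⟨h.1, h.2.symm⟩
    rw [if_neg hu']
    simp [hu]

/-- the edges between two copies -/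
noncomputable def aa (W : U → U → ℝ) (t : VG → Bool) (H : SimpleGraph V) (s τ : V → Bool)
    (K : Finset V) (Z : VG → V → U) (p q : VG) : ℝ :=
  ∏ u, ∏ v, if u ∈ pt τ K (t p) ∧ v ∈ pt τ K (t q) then ed H s W u v (Z p u) (Z q v) else 1

open Classical in
lemma t4 (W : U → U → ℝ) (G : SimpleGraph VG) (t : VG → Bool) (H : SimpleGraph V)
    (s τ : V → Bool) (K : Finset V) [Fintype {p : VG × V // p.2 ∉ K ∧ t p.1 = τ p.2}]
    (Z : VG → V → U) :
    ∏ x : {p : VG × V // p.2 ∉ K ∧ t p.1 = τ p.2},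
      ∏ y : {p : VG × V // p.2 ∉ K ∧ t p.1 = τ p.2},
        (if x.1.1 = y.1.1 ∨ G.Adj x.1.1 y.1.1 then
          ed H s W x.1.2 y.1.2 (Z x.1.1 x.1.2) (Z y.1.1 y.1.2) else 1) =
      (∏ p, aa W t H s τ K Z p p) *
        ∏ p, ∏ q, if G.Adj p q then aa W t H s τ K Z p q else 1 := by
  have e1 : ∏ x : {p : VG × V // p.2 ∉ K ∧ t p.1 = τ p.2},
      ∏ y : {p : VG × V // p.2 ∉ K ∧ t p.1 = τ p.2},
        (if x.1.1 = y.1.1 ∨ G.Adj x.1.1 y.1.1 then
          ed H s W x.1.2 y.1.2 (Z x.1.1 x.1.2) (Z y.1.1 y.1.2) else 1) =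
      ∏ p, ∏ q, if p = q ∨ G.Adj p q then aa W t H s τ K Z p q else 1 := by
    rw [prod_sub (fun x : VG × V => x.2 ∉ K ∧ t x.1 = τ x.2)
      (fun x => ∏ y : {p : VG × V // p.2 ∉ K ∧ t p.1 = τ p.2},
        (if x.1 = y.1.1 ∨ G.Adj x.1 y.1.1 then
          ed H s W x.2 y.1.2 (Z x.1 x.2) (Z y.1.1 y.1.2) else 1)), Fintype.prod_prod_type]
    refine prod_congr rfl fun p _ => ?_
    have e2 : ∀ u, (if (p, u).2 ∉ K ∧ t (p, u).1 = τ (p, u).2 then
        ∏ y : {p : VG × V // p.2 ∉ K ∧ t p.1 = τ p.2},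
          (if (p, u).1 = y.1.1 ∨ G.Adj (p, u).1 y.1.1 then
            ed H s W (p, u).2 y.1.2 (Z (p, u).1 (p, u).2) (Z y.1.1 y.1.2) else 1) else 1) =
        ∏ q, if p = q ∨ G.Adj p q then (∏ v, if u ∈ pt τ K (t p) ∧ v ∈ pt τ K (t q) then
          ed H s W u v (Z p u) (Z q v) else 1) else 1 := by
      intro u
      by_cases hu : u ∈ pt τ K (t p)
      · have hu' : u ∉ K ∧ t p = τ u := by
          simp only [pt, mem_filter, mem_univ, true_and] at hu
          exact ⟨hu.1, hu.2.symm⟩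
        rw [if_pos hu', prod_sub (fun x : VG × V => x.2 ∉ K ∧ t x.1 = τ x.2)
          (fun y => if (p, u).1 = y.1 ∨ G.Adj (p, u).1 y.1 then
            ed H s W (p, u).2 y.2 (Z (p, u).1 (p, u).2) (Z y.1 y.2) else 1),
          Fintype.prod_prod_type]
        refine prod_congr rfl fun q _ => ?_
        by_cases hq : p = q ∨ G.Adj p q
        · rw [if_pos hq]
          refine prod_congr rfl fun v _ => ?_
          simp only [hq, if_true, hu, true_and]
          refine if_congr ?_ rfl rfl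
          simp only [pt, mem_filter, mem_univ, true_and]
          rw [eq_comm (a := t q)]
        · rw [if_neg hq]
          simp [hq]
      · have hu' : ¬ (u ∉ K ∧ t p = τ u) := by
          simp only [pt, mem_filter, mem_univ, true_and] at hu
          exact fun h => hu ⟨h.1, h.2.symm⟩
        rw [if_neg hu']
        simp [hu]
    rw [prod_congr rfl fun u _ => e2 u, prod_comm]
    refine prod_congr rfl fun q _ => ?_
    by_cases hq : p = q ∨ G.Adj p q
    · simp only [hq, if_true, aa]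
    · simp [hq]
  rw [e1, ← prod_mul_distrib]
  refine prod_congr rfl fun p _ => ?_
  have e3 : aa W t H s τ K Z p p = ∏ q, if p = q then aa W t H s τ K Z p q else 1 := by
    rw [prod_ite_eq]
    simp
  rw [e3, ← prod_mul_distrib]
  refine prod_congr rfl fun q _ => ?_
  by_cases h : p = q
  · subst h
    simp
  · simp [h]

end

open Classical in
lemma point {VG V U : Type} [Fintype VG] [DecidableEq VG] [Fintype V] [DecidableEq V] [Fintype U]
    (W : U → U → ℝ) (G : SimpleGraph VG) (t : VG → Bool) (H : SimpleGraph V)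
    (s τ : V → Bool) (K : Finset V) (hG : ∀ p q, G.Adj p q → t p ≠ t q)
    (r : V → U) (Z : VG → V → U) (z : RV t τ K → U) (h0 : ∀ u, z (Sum.inl u) = r u.1)
    (h1 : ∀ x, z (Sum.inr x) = Z x.1.1 x.1.2) :
    ∏ e ∈ sideEdges (relSub G t H τ K) (subSide s t τ K), W (z e.1) (z e.2) =
      aw H s W K r * ((∏ p, bw H s W K (pt τ K (t p)) r (Z p)) *
        ∏ e ∈ sideEdges G t, dw H s W (pt τ K false) (pt τ K true) (Z e.1) (Z e.2)) := by
  rw [prod_edges (relSub G t H τ K) (subSide s t τ K) (fun a b => W (z a) (z b))]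
  simp only [Fintype.prod_sum_type, prod_mul_distrib]
  have a1 : ∀ u v : {v // v ∈ K}, (if (relSub G t H τ K).Adj (Sum.inl u) (Sum.inl v) ∧
      subSide s t τ K (Sum.inl u) = false ∧ subSide s t τ K (Sum.inl v) = true then
      W (z (Sum.inl u)) (z (Sum.inl v)) else 1) = ed H s W u.1 v.1 (r u.1) (r v.1) := by
    intro u v
    rw [h0, h0]
    rfl
  have a2 : ∀ (u : {v // v ∈ K}) (y : {p : VG × V // p.2 ∉ K ∧ t p.1 = τ p.2}),
      (if (relSub G t H τ K).Adj (Sum.inl u) (Sum.inr y) ∧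
      subSide s t τ K (Sum.inl u) = false ∧ subSide s t τ K (Sum.inr y) = true then
      W (z (Sum.inl u)) (z (Sum.inr y)) else 1) =
        ed H s W u.1 y.1.2 (r u.1) (Z y.1.1 y.1.2) := by
    intro u y
    rw [h0, h1]
    rfl
  have a3 : ∀ (x : {p : VG × V // p.2 ∉ K ∧ t p.1 = τ p.2}) (v : {v // v ∈ K}),
      (if (relSub G t H τ K).Adj (Sum.inr x) (Sum.inl v) ∧
      subSide s t τ K (Sum.inr x) = false ∧ subSide s t τ K (Sum.inl v) = true then
      W (z (Sum.inr x)) (z (Sum.inl v)) else 1) =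
        ed H s W x.1.2 v.1 (Z x.1.1 x.1.2) (r v.1) := by
    intro x v
    rw [h0, h1]
    rfl
  have a4 : ∀ x y : {p : VG × V // p.2 ∉ K ∧ t p.1 = τ p.2},
      (if (relSub G t H τ K).Adj (Sum.inr x) (Sum.inr y) ∧
      subSide s t τ K (Sum.inr x) = false ∧ subSide s t τ K (Sum.inr y) = true then
      W (z (Sum.inr x)) (z (Sum.inr y)) else 1) =
        if x.1.1 = y.1.1 ∨ G.Adj x.1.1 y.1.1 then
          ed H s W x.1.2 y.1.2 (Z x.1.1 x.1.2) (Z y.1.1 y.1.2) else 1 := by
    intro x y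
    rw [h1, h1]
    have : (relSub G t H τ K).Adj (Sum.inr x) (Sum.inr y) ↔
      (x.1.1 = y.1.1 ∨ G.Adj x.1.1 y.1.1) ∧ H.Adj x.1.2 y.1.2 := Iff.rfl
    have b1 : subSide s t τ K (Sum.inr x) = s x.1.2 := rfl
    have b2 : subSide s t τ K (Sum.inr y) = s y.1.2 := rfl
    rw [this, b1, b2]
    unfold ed
    by_cases h : x.1.1 = y.1.1 ∨ G.Adj x.1.1 y.1.1
    · simp only [h, true_and, if_true]
    · simp only [h, false_and, if_false]
  simp only [a1, a2, a3, a4]
  rw [t1, t2, t3, t4, prod_side G t hG]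
  have c1 : (∏ p, bw H s W K (pt τ K (t p)) r (Z p)) =
      (∏ p, ∏ u, ∏ v, if u ∈ K ∧ v ∈ pt τ K (t p) then ed H s W u v (r u) (Z p v) else 1) *
      (∏ p, ∏ u, ∏ v, if u ∈ pt τ K (t p) ∧ v ∈ K then ed H s W u v (Z p u) (r v) else 1) *
      ∏ p, aa W t H s τ K Z p p := by
    rw [← prod_mul_distrib, ← prod_mul_distrib]
    refine prod_congr rfl fun p _ => ?_
    simp only [bw, aa, prod_mul_distrib]
  have c2 : ∏ e ∈ sideEdges G t, dw H s W (pt τ K false) (pt τ K true) (Z e.1) (Z e.2) =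
      ∏ e ∈ sideEdges G t, aa W t H s τ K Z e.1 e.2 * aa W t H s τ K Z e.2 e.1 := by
    refine prod_congr rfl fun e he => ?_
    have he' : G.Adj e.1 e.2 ∧ t e.1 = false ∧ t e.2 = true := by
      simpa [sideEdges] using he
    simp only [dw, aa, he'.2.1, he'.2.2, prod_mul_distrib]
  rw [c1, c2]
  ring

theorem fact2 (hM : MargStmt) : SubStmt := by
  intro VG V U _ _ _ _ _ m W G t H s K τ hm hG
  classical
  set j : RV t τ K → V ⊕ (VG × V) :=
    Sum.elim (fun u => Sum.inl u.1) (fun x => Sum.inr x.1) with hjdef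
  have hj : Function.Injective j := by
    rintro (u | x) (v | y) h
    · have : u.1 = v.1 := Sum.inl.inj h
      rw [Subtype.ext this]
    · exact absurd h (by simp [hjdef])
    · exact absurd h (by simp [hjdef])
    · have : x.1 = y.1 := Sum.inr.inj h
      rw [Subtype.ext this]
  set μ : V ⊕ (VG × V) → U → ℝ := Sum.elim (fun v => m (s v)) (fun x => m (s x.2)) with hμ
  have key := hM (V ⊕ (VG × V)) (RV t τ K) U j μ
    (fun z => ∏ e ∈ sideEdges (relSub G t H τ K) (subSide s t τ K), W (z e.1) (z e.2)) hj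
    (by rintro (v | x) <;> exact hm _)
  have h1 : ∀ a, μ (j a) = m (subSide s t τ K a) := by rintro (u | x) <;> rfl
  simp only [h1] at key
  rw [← key]
  set Φ : (V ⊕ (VG × V) → U) → ℝ := fun ω => (∏ i, μ i (ω i)) *
    ∏ e ∈ sideEdges (relSub G t H τ K) (subSide s t τ K), W (ω (j e.1)) (ω (j e.2)) with hΦ
  have hsum : ∑ ω : V ⊕ (VG × V) → U, Φ ω =
      ∑ r : V → U, ∑ Z : VG → V → U, Φ (Sum.elim r (fun x => Z x.1 x.2)) := by
    rw [← Fintype.sum_prod_type (f := fun x : (V → U) × (VG → V → U) =>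
      Φ (Sum.elim x.1 (fun y => x.2 y.1 y.2)))]
    refine (Fintype.sum_equiv ((Equiv.sumArrowEquivProdArrow V (VG × V) U).trans
      (Equiv.prodCongr (Equiv.refl _) (Equiv.curry VG V U))) _ _ ?_)
    intro ω
    congr 1
    funext i
    rcases i with v | x <;> rfl
  rw [hsum]
  refine sum_congr rfl fun r _ => ?_
  rw [mul_sum]
  refine sum_congr rfl fun Z _ => ?_
  have e1 : (∏ i, μ i ((Sum.elim r (fun x => Z x.1 x.2) : V ⊕ (VG × V) → U) i)) =
      pm s m r * ∏ p, pm s m (Z p) := by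
    rw [Fintype.prod_sum_type, Fintype.prod_prod_type]
    rfl
  have e2 := point W G t H s τ K hG r Z
    (fun a => (Sum.elim r (fun x => Z x.1 x.2) : V ⊕ (VG × V) → U) (j a))
    (fun u => rfl) (fun x => rfl)
  simp only [hΦ]
  rw [e1]
  have e3 : ∏ p, pm s m (Z p) * bw H s W K (pt τ K (t p)) r (Z p) =
      (∏ p, pm s m (Z p)) * ∏ p, bw H s W K (pt τ K (t p)) r (Z p) := prod_mul_distrib
  rw [e3]
  rw [e2]
  ring

end Vale.Agent.P050.H590
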